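import Vale.Agent.P275.H490.Defs
import Vale.Agent.P275.H341.Ps

/-! Row LD: second order expansion of the logarithmic derivative -/

namespace Vale.Agent.P275.H989

open scoped BigOperators Topology
open Filter Vale.Agent.P275.H341 Vale.Agent.P275.H490

theorem inv_tendsto : Tendsto (fun q : ℕ => ((q : ℂ))⁻¹) atTop (𝓝 0) :=
  tendsto_inv_atTop_nhds_zero_nat (𝕜 := ℂ)

theorem ev_ne : ∀ᶠ q : ℕ in atTop, (q : ℂ) ≠ 0 := by
  filter_upwards [eventually_gt_atTop 0] with q hq
  exact_mod_cast hq.ne'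

theorem lead {f : ℕ → ℂ} {N : ℕ} {a b : ℂ} (h : T1 f N a b) :
    Tendsto (fun q : ℕ => f q / (q : ℂ) ^ N) atTop (𝓝 a) := by
  have h1 := (Tendsto.mul h inv_tendsto).add_const a
  rw [mul_zero, zero_add] at h1
  refine h1.congr' ?_
  filter_upwards [ev_ne] with q hq
  field_simp
  ring

theorem T1_mul {f g : ℕ → ℂ} {N M : ℕ} {a b c d : ℂ} (h : T1 f N a b) (h' : T1 g M c d) :
    T1 (fun q => f q * g q) (N + M) (a * c) (a * d + b * c) := by
  have h1 := (Tendsto.const_mul a h').add (Tendsto.mul h (lead h'))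
  refine h1.congr' ?_
  filter_upwards [ev_ne] with q hq
  rw [pow_add]
  field_simp
  ring

theorem T1_const_mul {f : ℕ → ℂ} {N : ℕ} {a b : ℂ} (c : ℂ) (h : T1 f N a b) :
    T1 (fun q => c * f q) N (c * a) (c * b) := by
  have h1 := Tendsto.const_mul c h
  refine h1.congr fun q => ?_
  ring

theorem T1_sub {f g : ℕ → ℂ} {N : ℕ} {a b c d : ℂ} (h : T1 f N a b) (h' : T1 g N c d) :
    T1 (fun q => f q - g q) N (a - c) (b - d) := by
  have h1 := Tendsto.sub h h'
  refine h1.congr fun q => ?_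
  ring

theorem T1_low {f : ℕ → ℂ} {N N' : ℕ} {a b : ℂ} (h : T1 f N a b) (hN : N + 2 ≤ N') :
    T1 f N' 0 0 := by
  obtain ⟨e, rfl⟩ : ∃ e, N' = N + 2 + e := ⟨N' - (N + 2), by omega⟩
  have h2 : Tendsto (fun q : ℕ => ((q : ℂ)⁻¹) ^ (e + 1)) atTop (𝓝 0) := by
    have := inv_tendsto.pow (e + 1)
    rwa [zero_pow (Nat.succ_ne_zero e)] at this
  have h1 := (lead h).mul h2
  rw [mul_zero] at h1
  refine h1.congr' ?_
  filter_upwards [ev_ne] with q hq
  rw [inv_pow, pow_add, pow_add, sub_zero]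
  field_simp
  ring

theorem T1_sum {ι : Type*} (s : Finset ι) {F : ι → ℕ → ℂ} {N : ℕ}
    (h : ∀ i ∈ s, T1 (F i) N 0 0) : T1 (fun q => ∑ i ∈ s, F i q) N 0 0 := by
  have h1 := tendsto_finsetSum s (fun i hi => h i hi)
  rw [Finset.sum_const_zero] at h1
  refine h1.congr fun q => ?_
  rw [sub_zero, Finset.sum_div, Finset.sum_mul]
  exact Finset.sum_congr rfl fun i _ => by rw [sub_zero]

theorem rowLD : RowLD := by
  intro a M b hM h0 ha K
  induction K using Nat.strong_induction_on with
  | _ K ih =>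
    intro hK
    have hrec : ∀ q, ld (a q) K = K * a q K - ∑ p ∈ (Finset.HasAntidiagonal.antidiagonal K).filter
        (fun p => p.1 ≠ 0 ∧ p.2 ≠ 0), ld (a q) p.1 * a q p.2 := by
      intro q
      have h1 := ld_rec (h0 q) K
      rw [← Finset.sum_filter_add_sum_filter_not _ (fun p : ℕ × ℕ => p.1 ≠ 0 ∧ p.2 ≠ 0)] at h1
      have h2 : ∑ p ∈ (Finset.HasAntidiagonal.antidiagonal K).filter
          (fun p : ℕ × ℕ => ¬ (p.1 ≠ 0 ∧ p.2 ≠ 0)), ld (a q) p.1 * a q p.2 = ld (a q) K := by
        rw [Finset.sum_eq_single (K, 0)]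
        · rw [h0, mul_one]
        · rintro ⟨i, j⟩ hp hne
          rw [Finset.mem_filter, Finset.HasAntidiagonal.mem_antidiagonal] at hp
          simp only at hp ⊢
          have hi : i = 0 := by
            by_contra hi
            have hj : j = 0 := by
              by_contra hj
              exact hp.2 ⟨hi, hj⟩
            apply hne
            rw [Prod.mk.injEq]
            omega
          rw [hi, ld_zero (h0 q), zero_mul]
        · intro hn
          exfalso
          apply hn
          rw [Finset.mem_filter, Finset.HasAntidiagonal.mem_antidiagonal]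
          simp
      rw [h2] at h1
      rw [← h1]
      ring
    have hsum : T1 (fun q => ∑ p ∈ (Finset.HasAntidiagonal.antidiagonal K).filter
        (fun p => p.1 ≠ 0 ∧ p.2 ≠ 0), ld (a q) p.1 * a q p.2) (M * (K * (K + 1))) 0 0 := by
      apply T1_sum
      rintro ⟨i, j⟩ hp
      rw [Finset.mem_filter, Finset.HasAntidiagonal.mem_antidiagonal] at hp
      simp only at hp ⊢
      obtain ⟨hij, hi, hj⟩ := hp
      have h3 := T1_mul (ih i (by omega) (by omega)) (ha j (by omega))
      refine T1_low h3 ?_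
      subst hij
      have h4 : 1 ≤ i * j := Nat.mul_pos (by omega) (by omega)
      have h5 : 1 ≤ M * (i * j) := Nat.mul_pos hM h4
      nlinarith
    have h6 := T1_sub (T1_const_mul (K : ℂ) (ha K hK)) hsum
    rw [mul_one, sub_zero, sub_zero] at h6
    have h7 : (fun q => ld (a q) K) = fun q => (K : ℂ) * a q K -
        ∑ p ∈ (Finset.HasAntidiagonal.antidiagonal K).filter
        (fun p => p.1 ≠ 0 ∧ p.2 ≠ 0), ld (a q) p.1 * a q p.2 := funext hrec
    rw [h7]
    exact h6

end Vale.Agent.P275.H989
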